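import Mathlib

/-!
# Weighted domination in finite metric spaces: basic calculus

A weighted edge is a triple `(a, b, c)`: two points and a gain `c > 0`.
A function `t` is admissible at level `L` for a list of weighted edges if
`c * |t a - t b| ≤ L * dist a b` along every edge.  A pair `(u, v)` is controlled
within `γ` if every admissible `t` satisfies `|t u - t v| ≤ L * γ`.
-/

namespace Vale.Agent.H51.P249

universe u

section Basic
variable {V : Type u} [PseudoMetricSpace V]

/-- `t` is `(L / gain)`-Lipschitz along every weighted edge of `E`. -/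
def Adm (E : List (V × V × ℝ)) (t : V → ℝ) (L : ℝ) : Prop :=
  ∀ e ∈ E, e.2.2 * |t e.1 - t e.2.1| ≤ L * dist e.1 e.2.1

/-- The pair `(u, v)` is controlled within `γ` by the weighted edges `E`. -/
def Ctl (E : List (V × V × ℝ)) (u v : V) (γ : ℝ) : Prop :=
  ∀ (t : V → ℝ) (L : ℝ), 0 ≤ L → Adm E t L → |t u - t v| ≤ L * γ

lemma Adm.mono {E E' : List (V × V × ℝ)} (h : ∀ e ∈ E, e ∈ E') {t : V → ℝ} {L : ℝ}
    (hA : Adm E' t L) : Adm E t L := fun e he => hA e (h e he)

lemma Ctl.mono {E E' : List (V × V × ℝ)} (h : ∀ e ∈ E, e ∈ E') {u v : V} {γ γ' : ℝ}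
    (hγ : γ ≤ γ') (hC : Ctl E u v γ) : Ctl E' u v γ' := by
  intro t L hL hA
  exact (hC t L hL (hA.mono h)).trans (mul_le_mul_of_nonneg_left hγ hL)

lemma Ctl.refl (E : List (V × V × ℝ)) (u : V) {γ : ℝ} (hγ : 0 ≤ γ) : Ctl E u u γ := by
  intro t L hL _
  simp only [sub_self, abs_zero]
  exact mul_nonneg hL hγ

lemma Ctl.symm {E : List (V × V × ℝ)} {u v : V} {γ : ℝ} (h : Ctl E u v γ) : Ctl E v u γ := by
  intro t L hL hA
  rw [abs_sub_comm]
  exact h t L hL hA

lemma Ctl.trans {E : List (V × V × ℝ)} {u x v : V} {γ₁ γ₂ : ℝ} (h₁ : Ctl E u x γ₁)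
    (h₂ : Ctl E x v γ₂) : Ctl E u v (γ₁ + γ₂) := by
  intro t L hL hA
  calc |t u - t v| ≤ |t u - t x| + |t x - t v| := abs_sub_le _ _ _
    _ ≤ L * γ₁ + L * γ₂ := add_le_add (h₁ t L hL hA) (h₂ t L hL hA)
    _ = L * (γ₁ + γ₂) := by ring

lemma Ctl.edge {E : List (V × V × ℝ)} {a b : V} {c : ℝ} (hc : 0 < c) (he : (a, b, c) ∈ E) :
    Ctl E a b (dist a b / c) := by
  intro t L hL hA
  have h := hA _ he
  simp only at h
  rw [← mul_div_assoc, le_div_iff₀ hc]
  linarith [h]

end Basic

section Cost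
variable {V : Type u}

/-- Total cost of a weighted edge list: the sum of the `r`-th powers of the gains. -/
noncomputable def cost (r : ℝ) (E : List (V × V × ℝ)) : ℝ := (E.map (fun e => e.2.2 ^ r)).sum

lemma cost_nil (r : ℝ) : cost r ([] : List (V × V × ℝ)) = 0 := by simp [cost]

lemma cost_append (r : ℝ) (E E' : List (V × V × ℝ)) :
    cost r (E ++ E') = cost r E + cost r E' := by
  simp [cost]

lemma cost_nonneg (r : ℝ) {E : List (V × V × ℝ)} (h : ∀ e ∈ E, 0 < e.2.2) : 0 ≤ cost r E := by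
  unfold cost
  apply List.sum_nonneg
  intro x hx
  rw [List.mem_map] at hx
  obtain ⟨e, he, rfl⟩ := hx
  exact (Real.rpow_pos_of_pos (h e he) r).le

lemma cost_map_const {ι : Type*} (r : ℝ) (l : List ι) (f g : ι → V) (c : ℝ) :
    cost r (l.map (fun x => (f x, g x, c))) = l.length * c ^ r := by
  induction l with
  | nil => simp [cost]
  | cons a l ih =>
    have h : cost r ((a :: l).map (fun x => (f x, g x, c))) =
        c ^ r + cost r (l.map (fun x => (f x, g x, c))) := by
      simp [cost]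
    rw [h, ih]
    push_cast [List.length_cons]
    ring

lemma cost_flatMap_range (r : ℝ) (F : ℕ → List (V × V × ℝ)) (I : ℕ) :
    cost r ((List.range I).flatMap F) = ∑ i ∈ Finset.range I, cost r (F i) := by
  induction I with
  | zero => simp [cost]
  | succ I ih =>
    rw [List.range_succ, List.flatMap_append, cost_append, ih, Finset.sum_range_succ]
    simp

lemma mem_flatMap_range {F : ℕ → List (V × V × ℝ)} {I i : ℕ} (hi : i < I)
    {e : V × V × ℝ} (he : e ∈ F i) : e ∈ (List.range I).flatMap F := by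
  rw [List.mem_flatMap]
  exact ⟨i, List.mem_range.mpr hi, he⟩

end Cost

end Vale.Agent.H51.P249
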