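import Mathlib
import Vale.Agent.H51.P249.Dom

/-!
# Nested nets, tree edges and the counting of non-isolated net points
-/

namespace Vale.Agent.H51.P249

universe u

section Nets
variable {V : Type u} [MetricSpace V]

lemma exists_net (S : Finset V) (s : ℝ) :
    ∃ T : Finset V, T ⊆ S ∧ (∀ a ∈ T, ∀ b ∈ T, a ≠ b → s ≤ dist a b) ∧
      ∀ x ∈ S, x ∉ T → ∃ y ∈ T, dist x y < s := by
  classical
  let good : Finset V → Prop := fun T => ∀ a ∈ T, ∀ b ∈ T, a ≠ b → s ≤ dist a b
  obtain ⟨T, hT, hmax⟩ := Finset.exists_max_image (S.powerset.filter good) Finset.card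
    ⟨∅, by simp [good]⟩
  rw [Finset.mem_filter, Finset.mem_powerset] at hT
  refine ⟨T, hT.1, hT.2, ?_⟩
  intro x hxS hxT
  by_contra hcon
  push Not at hcon
  have hgood : good (insert x T) := by
    intro a ha b hb hab
    rw [Finset.mem_insert] at ha hb
    rcases ha with rfl | ha <;> rcases hb with rfl | hb
    · exact absurd rfl hab
    · exact hcon b hb
    · rw [dist_comm]; exact hcon a ha
    · exact hT.2 a ha b hb hab
  have hmem : insert x T ∈ S.powerset.filter good := by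
    rw [Finset.mem_filter, Finset.mem_powerset]
    exact ⟨Finset.insert_subset hxS hT.1, hgood⟩
  have := hmax _ hmem
  rw [Finset.card_insert_of_notMem hxT] at this
  omega

variable [Fintype V]

/-- Nested nets: `net r₀ 0` is everything and `net r₀ (i+1)` is a maximal
`r₀ * 2^(i+1)`-separated subset of `net r₀ i`. -/
noncomputable def net (r₀ : ℝ) : ℕ → Finset V
  | 0 => Finset.univ
  | (i + 1) => Classical.choose (exists_net (net r₀ i) (r₀ * 2 ^ (i + 1)))

lemma net_succ_spec (r₀ : ℝ) (i : ℕ) :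
    net (V := V) r₀ (i + 1) ⊆ net r₀ i ∧
    (∀ a ∈ net (V := V) r₀ (i + 1), ∀ b ∈ net (V := V) r₀ (i + 1), a ≠ b →
      r₀ * 2 ^ (i + 1) ≤ dist a b) ∧
    ∀ x ∈ net (V := V) r₀ i, x ∉ net (V := V) r₀ (i + 1) →
      ∃ y ∈ net (V := V) r₀ (i + 1), dist x y < r₀ * 2 ^ (i + 1) :=
  Classical.choose_spec (exists_net (net r₀ i) (r₀ * 2 ^ (i + 1)))

lemma net_anti (r₀ : ℝ) {i j : ℕ} (h : i ≤ j) : net (V := V) r₀ j ⊆ net r₀ i := by
  induction j, h using Nat.le_induction with
  | base => exact le_rfl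
  | succ j _ ih => exact (net_succ_spec r₀ j).1.trans ih

lemma net_sep (r₀ : ℝ) (hsep : ∀ a b : V, a ≠ b → r₀ ≤ dist a b) (i : ℕ) :
    ∀ a ∈ net (V := V) r₀ i, ∀ b ∈ net (V := V) r₀ i, a ≠ b → r₀ * 2 ^ i ≤ dist a b := by
  cases i with
  | zero => intro a _ b _ hab; simpa using hsep a b hab
  | succ i => exact (net_succ_spec r₀ i).2.1

open Classical in
/-- The parent of a point of `net r₀ i` in `net r₀ (i+1)`. -/
noncomputable def par (r₀ : ℝ) (i : ℕ) (x : V) : V :=
  if h : x ∈ net r₀ i ∧ x ∉ net r₀ (i + 1) then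
    Classical.choose ((net_succ_spec r₀ i).2.2 x h.1 h.2)
  else x

lemma par_mem (r₀ : ℝ) (i : ℕ) {x : V} (hx : x ∈ net r₀ i) : par r₀ i x ∈ net r₀ (i + 1) := by
  unfold par
  split_ifs with h
  · exact (Classical.choose_spec ((net_succ_spec r₀ i).2.2 x h.1 h.2)).1
  · by_contra hcon
    exact h ⟨hx, hcon⟩

lemma par_dist (r₀ : ℝ) (hr₀ : 0 < r₀) (i : ℕ) (x : V) :
    dist x (par r₀ i x) < r₀ * 2 ^ (i + 1) := by
  unfold par
  split_ifs with h
  · exact (Classical.choose_spec ((net_succ_spec r₀ i).2.2 x h.1 h.2)).2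
  · rw [dist_self]; positivity

lemma par_eq_self (r₀ : ℝ) (i : ℕ) {x : V} (hx : x ∈ net r₀ (i + 1)) : par r₀ i x = x := by
  unfold par
  rw [dif_neg]
  exact fun h => h.2 hx

/-- The ancestor of `x` in `net r₀ i`. -/
noncomputable def anc (r₀ : ℝ) : ℕ → V → V
  | 0, x => x
  | (i + 1), x => par r₀ i (anc r₀ i x)

lemma anc_mem (r₀ : ℝ) (i : ℕ) (x : V) : anc r₀ i x ∈ net r₀ i := by
  induction i with
  | zero => simp [anc, net]
  | succ i ih => exact par_mem r₀ i ih

lemma anc_dist (r₀ : ℝ) (hr₀ : 0 < r₀) (i : ℕ) (x : V) :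
    dist x (anc r₀ i x) ≤ 2 * (r₀ * 2 ^ i) := by
  induction i with
  | zero => simp only [anc, dist_self]; positivity
  | succ i ih =>
    have h1 := par_dist r₀ hr₀ i (anc r₀ i x)
    have h2 := dist_triangle x (anc r₀ i x) (par r₀ i (anc r₀ i x))
    have h3 : anc r₀ (i + 1) x = par r₀ i (anc r₀ i x) := rfl
    rw [h3]
    rw [pow_succ] at h1 ⊢
    linarith

/-- The points of `net r₀ i` having another point of `net r₀ i` within `20 * r₀ * 2^i`. -/
noncomputable def lev (r₀ : ℝ) (i : ℕ) : Finset V :=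
  @Finset.filter V (fun u => ∃ v ∈ net r₀ i, v ≠ u ∧ dist u v ≤ 20 * (r₀ * 2 ^ i))
    (Classical.decPred _) (net r₀ i)

lemma mem_lev (r₀ : ℝ) (i : ℕ) (s : V) : s ∈ lev (V := V) r₀ i ↔
    s ∈ net r₀ i ∧ ∃ v ∈ net r₀ i, v ≠ s ∧ dist s v ≤ 20 * (r₀ * 2 ^ i) := by
  unfold lev
  exact @Finset.mem_filter V _ (Classical.decPred _) _ _

lemma lev_card (r₀ : ℝ) (hr₀ : 0 < r₀) (hsep : ∀ a b : V, a ≠ b → r₀ ≤ dist a b) (i : ℕ) :
    ((lev (V := V) r₀ i).card : ℝ) ≤
      2 * (((net (V := V) r₀ i).card : ℝ) - (net (V := V) r₀ (i + 6)).card) := by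
  classical
  have hρ : 0 < r₀ * 2 ^ i := by positivity
  have hsep6 : ∀ a ∈ net (V := V) r₀ (i + 6), ∀ b ∈ net (V := V) r₀ (i + 6), a ≠ b →
      64 * (r₀ * 2 ^ i) ≤ dist a b := by
    intro a ha b hb hab
    have h := net_sep r₀ hsep (i + 6) a ha b hb hab
    rw [pow_add] at h
    norm_num at h
    linarith
  have hmemU : ∀ s, s ∈ lev (V := V) r₀ i ↔
      s ∈ net r₀ i ∧ ∃ v ∈ net r₀ i, v ≠ s ∧ dist s v ≤ 20 * (r₀ * 2 ^ i) := by
    intro s
    unfold lev
    exact @Finset.mem_filter V _ (Classical.decPred _) _ _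
  have hnb : ∀ s ∈ lev (V := V) r₀ i,
      ∃ v, v ∈ net r₀ i ∧ v ≠ s ∧ dist s v ≤ 20 * (r₀ * 2 ^ i) := by
    intro s hs
    obtain ⟨v, hv, h1, h2⟩ := ((hmemU s).mp hs).2
    exact ⟨v, hv, h1, h2⟩
  choose! nbr hnbr using hnb
  have hinj : (lev (V := V) r₀ i ∩ net r₀ (i + 6)).card ≤
      (lev (V := V) r₀ i \ net r₀ (i + 6)).card := by
    apply Finset.card_le_card_of_injOn nbr
    · intro s hs
      rw [Finset.mem_coe, Finset.mem_inter] at hs
      obtain ⟨h1, h2, h3⟩ := hnbr s hs.1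
      rw [Finset.mem_coe, Finset.mem_sdiff]
      refine ⟨?_, ?_⟩
      · rw [hmemU]
        exact ⟨h1, s, ((hmemU s).mp hs.1).1, h2.symm, by rwa [dist_comm]⟩
      · intro h6
        have := hsep6 s hs.2 (nbr s) h6 (Ne.symm h2)
        linarith
    · intro s hs s' hs' heq
      rw [Finset.mem_coe, Finset.mem_inter] at hs hs'
      by_contra hne
      have h1 := (hnbr s hs.1).2.2
      have h1' := (hnbr s' hs'.1).2.2
      have h2 := hsep6 s hs.2 s' hs'.2 hne
      have htri := dist_triangle s (nbr s) s'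
      rw [heq] at h1
      rw [heq] at htri
      have h3 : dist (nbr s') s' = dist s' (nbr s') := dist_comm _ _
      linarith
  have hsplit : (lev (V := V) r₀ i).card =
      (lev (V := V) r₀ i ∩ net r₀ (i + 6)).card + (lev (V := V) r₀ i \ net r₀ (i + 6)).card :=
    (Finset.card_inter_add_card_sdiff _ _).symm
  have hsub : (lev (V := V) r₀ i \ net r₀ (i + 6)).card ≤
      (net (V := V) r₀ i \ net r₀ (i + 6)).card := by
    apply Finset.card_le_card
    apply Finset.sdiff_subset_sdiff _ le_rfl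
    intro s hs
    exact ((hmemU s).mp hs).1
  have hcard : ((net (V := V) r₀ i \ net r₀ (i + 6)).card : ℝ) =
      (net (V := V) r₀ i).card - (net (V := V) r₀ (i + 6)).card :=
    Finset.cast_card_sdiff (net_anti r₀ (Nat.le_add_right i 6))
  have h4 : (lev (V := V) r₀ i).card ≤ 2 * (net (V := V) r₀ i \ net r₀ (i + 6)).card := by
    omega
  have h5 : ((lev (V := V) r₀ i).card : ℝ) ≤ 2 * ((net (V := V) r₀ i \ net r₀ (i + 6)).card : ℝ) := by
    exact_mod_cast h4
  linarith

variable [DecidableEq V]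

/-- Tree edges of level `i`: each point of `net r₀ i` outside `net r₀ (i+1)` is joined
to its parent with gain `1`. -/
noncomputable def treeLevel (r₀ : ℝ) (i : ℕ) : List (V × V × ℝ) :=
  (net r₀ i \ net r₀ (i + 1)).toList.map (fun x => (x, par r₀ i x, (1 : ℝ)))

/-- All tree edges below level `I`. -/
noncomputable def treeEdges (r₀ : ℝ) (I : ℕ) : List (V × V × ℝ) :=
  (List.range I).flatMap (treeLevel r₀)

lemma treeEdges_pos (r₀ : ℝ) (I : ℕ) : ∀ e ∈ treeEdges (V := V) r₀ I, 0 < e.2.2 := by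
  intro e he
  unfold treeEdges at he
  rw [List.mem_flatMap] at he
  obtain ⟨i, _, hi⟩ := he
  unfold treeLevel at hi
  rw [List.mem_map] at hi
  obtain ⟨x, _, rfl⟩ := hi
  exact one_pos

lemma tree_cost (r : ℝ) (r₀ : ℝ) (I : ℕ) :
    cost r (treeEdges (V := V) r₀ I) + ((net (V := V) r₀ I).card : ℝ) = Fintype.card V := by
  induction I with
  | zero => simp [treeEdges, cost, net]
  | succ I ih =>
    have h1 : treeEdges (V := V) r₀ (I + 1) = treeEdges r₀ I ++ treeLevel r₀ I := by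
      unfold treeEdges
      rw [List.range_succ, List.flatMap_append]
      simp
    have h2 : cost r (treeLevel (V := V) r₀ I) =
        ((net (V := V) r₀ I).card : ℝ) - (net (V := V) r₀ (I + 1)).card := by
      unfold treeLevel
      rw [cost_map_const, Finset.length_toList, Real.one_rpow, mul_one]
      exact Finset.cast_card_sdiff (net_succ_spec r₀ I).1
    rw [h1, cost_append, h2]
    linarith

lemma tree_step_ctl (r₀ : ℝ) (hr₀ : 0 < r₀) {I i : ℕ} (hi : i < I) (x : V) :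
    Ctl (treeEdges r₀ I) (anc r₀ i x) (anc r₀ (i + 1) x) (r₀ * 2 ^ (i + 1)) := by
  have hpos : (0 : ℝ) ≤ r₀ * 2 ^ (i + 1) := by positivity
  by_cases h : anc r₀ i x ∈ net r₀ (i + 1)
  · have h' : anc r₀ (i + 1) x = anc r₀ i x := par_eq_self r₀ i h
    rw [h']
    exact Ctl.refl _ _ hpos
  · have hmem : (anc r₀ i x, par r₀ i (anc r₀ i x), (1 : ℝ)) ∈ treeEdges r₀ I := by
      apply mem_flatMap_range hi
      unfold treeLevel
      rw [List.mem_map]
      refine ⟨anc r₀ i x, ?_, rfl⟩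
      rw [Finset.mem_toList, Finset.mem_sdiff]
      exact ⟨anc_mem r₀ i x, h⟩
    have h2 := Ctl.edge one_pos hmem
    rw [div_one] at h2
    exact h2.mono (fun e he => he) (par_dist r₀ hr₀ i _).le

lemma anc_ctl (r₀ : ℝ) (hr₀ : 0 < r₀) {I : ℕ} (x : V) : ∀ i, i ≤ I →
    Ctl (treeEdges r₀ I) x (anc r₀ i x) (2 * (r₀ * 2 ^ i)) := by
  intro i
  induction i with
  | zero => intro _; exact Ctl.refl _ _ (by positivity)
  | succ i ih =>
    intro hi
    have h1 := ih (by omega)
    have h2 := tree_step_ctl r₀ hr₀ (show i < I by omega) x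
    refine (h1.trans h2).mono (fun e he => he) (le_of_eq ?_)
    rw [pow_succ]; ring

end Nets

lemma sum_sub_shift (a : ℕ → ℝ) (ha : Antitone a) (h0 : ∀ i, 0 ≤ a i) (k I : ℕ) :
    ∑ i ∈ Finset.range I, (a i - a (i + k)) ≤ k * a 0 := by
  induction k with
  | zero => simp
  | succ k ih =>
    have h1 : ∑ i ∈ Finset.range I, (a i - a (i + (k + 1))) =
        ∑ i ∈ Finset.range I, (a i - a (i + k)) +
          ∑ i ∈ Finset.range I, (a (i + k) - a (i + k + 1)) := by
      rw [← Finset.sum_add_distrib]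
      apply Finset.sum_congr rfl
      intro i _
      rw [← add_assoc]; ring
    have h2 : ∑ i ∈ Finset.range I, (a (i + k) - a (i + k + 1)) = a k - a (I + k) := by
      have h := Finset.sum_range_sub' (fun i => a (i + k)) I
      simp only [zero_add] at h
      rw [← h]
      apply Finset.sum_congr rfl
      intro i _
      have : i + 1 + k = i + k + 1 := by omega
      rw [this]
    rw [h1, h2]
    have h3 := ha (Nat.zero_le k)
    have h4 := h0 (I + k)
    push_cast
    linarith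

end Vale.Agent.H51.P249
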