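import Mathlib
import Vale.Agent.H51.P249.Nets

/-!
# Linear-cost weighted domination of a finite metric space, given the single-scale lemma
-/

namespace Vale.Agent.H51.P249

universe u

section Main
variable {V : Type u} [MetricSpace V] [Fintype V]

theorem dominating_of_single_scale (r K : ℝ) (hK : 0 ≤ K)
    (hSS : ∀ (U : Finset V) (G : Finset (V × V)), (∀ e ∈ G, e.1 ∈ U ∧ e.2 ∈ U) → ∀ (l c : ℝ),
      (∀ e ∈ G, dist e.1 e.2 ≤ l) → 0 < c →
      ∃ E : List (V × V × ℝ), (∀ e ∈ E, 0 < e.2.2) ∧ cost r E ≤ K * c ^ r * U.card ∧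
        ∀ e ∈ G, Ctl E e.1 e.2 (8 * l / c)) :
    ∃ E : List (V × V × ℝ), (∀ e ∈ E, 0 < e.2.2) ∧
      cost r E ≤ (1 + 12 * K * 160 ^ r) * Fintype.card V ∧
      ∀ u v : V, Ctl E u v (dist u v) := by
  classical
  have h160 : (0 : ℝ) ≤ 160 ^ r := Real.rpow_nonneg (by norm_num) r
  by_cases hsub : ∀ a b : V, a = b
  · refine ⟨[], by simp, ?_, ?_⟩
    · rw [cost_nil]
      positivity
    · intro u v
      rw [hsub u v]
      exact Ctl.refl _ _ (by simp)
  push Not at hsub
  obtain ⟨a₀, b₀, hab₀⟩ := hsub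
  -- minimal distance
  obtain ⟨r₀, hr₀, hsep⟩ : ∃ r₀ : ℝ, 0 < r₀ ∧ ∀ a b : V, a ≠ b → r₀ ≤ dist a b := by
    let S : Finset (V × V) := Finset.univ.filter (fun q => q.1 ≠ q.2)
    have hS : S.Nonempty := ⟨(a₀, b₀), by simp [S, hab₀]⟩
    obtain ⟨q, hq, hmin⟩ := Finset.exists_min_image S (fun q => dist q.1 q.2) hS
    refine ⟨dist q.1 q.2, dist_pos.mpr (by simpa [S] using hq), ?_⟩
    intro a b hab
    exact hmin (a, b) (by simp [S, hab])
  -- bound on distances
  obtain ⟨B, hB⟩ : ∃ B : ℝ, ∀ u v : V, dist u v ≤ B := by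
    refine ⟨∑ q : V × V, dist q.1 q.2, fun u v => ?_⟩
    exact Finset.single_le_sum (f := fun q : V × V => dist q.1 q.2) (fun q _ => dist_nonneg)
      (Finset.mem_univ (u, v))
  obtain ⟨I₀, hI₀⟩ := pow_unbounded_of_one_lt (B / r₀) (one_lt_two : (1 : ℝ) < 2)
  set I := I₀ + 1 with hI
  have hBI : ∀ u v : V, dist u v < r₀ * 2 ^ I := by
    intro u v
    have h1 : B < r₀ * 2 ^ I₀ := by
      rw [div_lt_iff₀ hr₀] at hI₀; linarith
    have h2 : (2 : ℝ) ^ I₀ ≤ 2 ^ I := pow_le_pow_right₀ (by norm_num) (by omega)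
    have h3 := hB u v
    nlinarith
  -- level graphs
  let G : ℕ → Finset (V × V) := fun i =>
    ((net r₀ i) ×ˢ (net r₀ i)).filter (fun q => q.1 ≠ q.2 ∧ dist q.1 q.2 ≤ 20 * (r₀ * 2 ^ i))
  have hGmem : ∀ i (e : V × V), e ∈ G i ↔
      (e.1 ∈ net r₀ i ∧ e.2 ∈ net r₀ i) ∧ e.1 ≠ e.2 ∧ dist e.1 e.2 ≤ 20 * (r₀ * 2 ^ i) := by
    intro i e
    simp only [G, Finset.mem_filter, Finset.mem_product]
  have hGlev : ∀ i, ∀ e ∈ G i, e.1 ∈ lev r₀ i ∧ e.2 ∈ lev r₀ i := by
    intro i e he
    rw [hGmem] at he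
    obtain ⟨⟨h1, h2⟩, h3, h4⟩ := he
    constructor
    · rw [mem_lev]; exact ⟨h1, e.2, h2, h3.symm, h4⟩
    · rw [mem_lev]; exact ⟨h2, e.1, h1, h3, by rwa [dist_comm]⟩
  have hGlen : ∀ i, ∀ e ∈ G i, dist e.1 e.2 ≤ 20 * (r₀ * 2 ^ i) :=
    fun i e he => ((hGmem i e).mp he).2.2
  choose Ei hEpos hEcost hEctl using fun i =>
    hSS (lev r₀ i) (G i) (hGlev i) (20 * (r₀ * 2 ^ i)) 160 (hGlen i) (by norm_num)
  have hgam : ∀ i : ℕ, 8 * (20 * (r₀ * 2 ^ i)) / 160 = r₀ * 2 ^ i := by intro i; ring
  refine ⟨treeEdges r₀ I ++ (List.range I).flatMap Ei, ?_, ?_, ?_⟩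
  · intro e he
    rw [List.mem_append] at he
    rcases he with he | he
    · exact treeEdges_pos r₀ I e he
    · rw [List.mem_flatMap] at he
      obtain ⟨i, _, hi⟩ := he
      exact hEpos i e hi
  · rw [cost_append, cost_flatMap_range]
    have h1 : cost r (treeEdges (V := V) r₀ I) ≤ Fintype.card V := by
      have h := tree_cost (V := V) r r₀ I
      have h0 : (0 : ℝ) ≤ (net (V := V) r₀ I).card := Nat.cast_nonneg _
      linarith
    have h2 : ∑ i ∈ Finset.range I, cost r (Ei i) ≤ 12 * K * 160 ^ r * Fintype.card V := by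
      calc ∑ i ∈ Finset.range I, cost r (Ei i)
          ≤ ∑ i ∈ Finset.range I, K * 160 ^ r *
              (2 * (((net (V := V) r₀ i).card : ℝ) - (net (V := V) r₀ (i + 6)).card)) := by
            apply Finset.sum_le_sum
            intro i _
            refine (hEcost i).trans ?_
            exact mul_le_mul_of_nonneg_left (lev_card r₀ hr₀ hsep i) (by positivity)
        _ = 2 * K * 160 ^ r * ∑ i ∈ Finset.range I,
              (((net (V := V) r₀ i).card : ℝ) - (net (V := V) r₀ (i + 6)).card) := by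
            rw [Finset.mul_sum]; apply Finset.sum_congr rfl; intro i _; ring
        _ ≤ 2 * K * 160 ^ r * (6 * (net (V := V) r₀ 0).card) := by
            apply mul_le_mul_of_nonneg_left _ (by positivity)
            have h := sum_sub_shift (fun i => ((net (V := V) r₀ i).card : ℝ))
              (fun i j hij => Nat.cast_le.mpr (Finset.card_le_card (net_anti r₀ hij)))
              (fun i => Nat.cast_nonneg _) 6 I
            simpa using h
        _ = 12 * K * 160 ^ r * Fintype.card V := by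
            simp only [net, Finset.card_univ]; ring
    linarith
  · intro u v
    set E := treeEdges r₀ I ++ (List.range I).flatMap Ei with hE
    have hsubT : ∀ e ∈ treeEdges r₀ I, e ∈ E := fun e he => List.mem_append_left _ he
    have hsubE : ∀ i, i < I → ∀ e ∈ Ei i, e ∈ E :=
      fun i hi e he => List.mem_append_right _ (mem_flatMap_range hi he)
    by_cases huv : u = v
    · rw [huv]; exact Ctl.refl _ _ (by simp)
    have hR : r₀ ≤ dist u v := hsep u v huv
    by_cases hsmall : dist u v < 8 * r₀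
    · have hmem : (u, v) ∈ G 0 := by
        rw [hGmem]
        refine ⟨⟨by simp [net], by simp [net]⟩, huv, ?_⟩
        simp only [pow_zero, mul_one]; linarith
      have h1 := hEctl 0 (u, v) hmem
      rw [hgam] at h1
      exact h1.mono (hsubE 0 (by omega)) (by simpa using hR)
    · push Not at hsmall
      have hex : ∃ j : ℕ, dist u v < 8 * (r₀ * 2 ^ j) := by
        obtain ⟨j, hj⟩ := pow_unbounded_of_one_lt (dist u v / r₀) (one_lt_two : (1 : ℝ) < 2)
        refine ⟨j, ?_⟩
        rw [div_lt_iff₀ hr₀] at hj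
        have : (0 : ℝ) < 2 ^ j := by positivity
        nlinarith
      have hj1 : dist u v < 8 * (r₀ * 2 ^ (Nat.find hex)) := Nat.find_spec hex
      have hj0 : Nat.find hex ≠ 0 := by
        intro h0
        rw [h0] at hj1
        simp only [pow_zero, mul_one] at hj1
        linarith
      obtain ⟨i, hi⟩ : ∃ i, Nat.find hex = i + 1 := Nat.exists_eq_succ_of_ne_zero hj0
      have hi1 : 8 * (r₀ * 2 ^ i) ≤ dist u v := by
        have h := Nat.find_min hex (show i < Nat.find hex by omega)
        push Not at h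
        exact h
      have hi2 : dist u v < 16 * (r₀ * 2 ^ i) := by
        rw [hi, pow_succ] at hj1; linarith
      have hρ : 0 < r₀ * 2 ^ i := by positivity
      have hiI : i < I := by
        by_contra hcon
        push Not at hcon
        have h2 : (2 : ℝ) ^ I ≤ 2 ^ i := pow_le_pow_right₀ (by norm_num) hcon
        have h3 := hBI u v
        nlinarith
      have ha := anc_dist r₀ hr₀ i u
      have hb := anc_dist r₀ hr₀ i v
      have hab : dist (anc r₀ i u) (anc r₀ i v) ≤ 20 * (r₀ * 2 ^ i) := by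
        have h1 := dist_triangle (anc r₀ i u) u (anc r₀ i v)
        have h2 := dist_triangle u v (anc r₀ i v)
        rw [dist_comm (anc r₀ i u) u] at h1
        linarith
      have hne : anc r₀ i u ≠ anc r₀ i v := by
        intro heq
        have h1 := dist_triangle u (anc r₀ i u) v
        rw [heq, dist_comm (anc r₀ i v) v] at h1
        rw [heq] at ha
        linarith
      have hmem : (anc r₀ i u, anc r₀ i v) ∈ G i := by
        rw [hGmem]
        exact ⟨⟨anc_mem r₀ i u, anc_mem r₀ i v⟩, hne, hab⟩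
      have h1 := hEctl i _ hmem
      rw [hgam] at h1
      have h2 := (anc_ctl r₀ hr₀ (I := I) u i hiI.le).mono hsubT le_rfl
      have h3 := ((anc_ctl r₀ hr₀ (I := I) v i hiI.le).mono hsubT le_rfl).symm
      have h4 := (h2.trans (h1.mono (hsubE i hiI) le_rfl)).trans h3
      exact h4.mono (fun e he => he) (by linarith)

end Main

end Vale.Agent.H51.P249
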