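import Mathlib
import Vale.Agent.H51.P249.Metric
import Vale.Agent.H73.Sampling

/-!
# From a linear-cost weighted domination to `n log n` coordinates in `L_p`
-/

open MeasureTheory

namespace Vale.Agent.H51.P249

universe u

section ToFinset

lemma sum_toFinset_le {β : Type*} [DecidableEq β] (l : List β) (f : β → ℝ)
    (hf : ∀ a ∈ l, 0 ≤ f a) : ∑ a ∈ l.toFinset, f a ≤ (l.map f).sum := by
  induction l with
  | nil => simp
  | cons a l ih =>
    have ih' := ih (fun b hb => hf b (List.mem_cons_of_mem _ hb))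
    have ha : 0 ≤ f a := hf a List.mem_cons_self
    rw [List.toFinset_cons, List.map_cons, List.sum_cons]
    by_cases hmem : a ∈ l.toFinset
    · rw [Finset.insert_eq_of_mem hmem]; linarith
    · rw [Finset.sum_insert hmem]; linarith

/-- Finset form of the domination statement. -/
lemma finset_of_list {V : Type u} [PseudoMetricSpace V] (r C : ℝ)
    (E : List (V × V × ℝ)) (hpos : ∀ e ∈ E, 0 < e.2.2) (hcost : cost r E ≤ C)
    (hctl : ∀ u v : V, Ctl E u v (dist u v)) :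
    ∃ F : Finset (V × V × ℝ), (∀ e ∈ F, 0 < e.2.2) ∧ ∑ e ∈ F, e.2.2 ^ r ≤ C ∧
      ∀ (t : V → ℝ) (L : ℝ), 0 ≤ L →
        (∀ e ∈ F, e.2.2 * |t e.1 - t e.2.1| ≤ L * dist e.1 e.2.1) →
        ∀ u v : V, |t u - t v| ≤ L * dist u v := by
  classical
  refine ⟨E.toFinset, fun e he => hpos e (List.mem_toFinset.mp he), ?_, ?_⟩
  · refine (sum_toFinset_le E (fun e => e.2.2 ^ r) ?_).trans hcost
    intro e he
    exact (Real.rpow_pos_of_pos (hpos e he) r).le
  · intro t L hL hA u v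
    exact hctl u v t L hL (fun e he => hA e (List.mem_toFinset.mpr he))

end ToFinset

section LpFacts
variable {α : Type u} [MeasurableSpace α] {μ : Measure α} {p : ENNReal}

lemma integral_rpow_sub (hp0 : p ≠ 0) (hpt : p ≠ ⊤) (x y : Lp ℝ p μ) :
    ∫ a, |x a - y a| ^ p.toReal ∂μ = ‖x - y‖ ^ p.toReal := by
  have hmem : MemLp (⇑(x - y)) p μ := Lp.memLp (x - y)
  have h1 := hmem.eLpNorm_eq_integral_rpow_norm hp0 hpt
  have hr : 0 < p.toReal := ENNReal.toReal_pos hp0 hpt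
  have hnn : 0 ≤ ∫ a, ‖(x - y) a‖ ^ p.toReal ∂μ := integral_nonneg (fun a => by positivity)
  have h2 : ‖x - y‖ = (∫ a, ‖(x - y) a‖ ^ p.toReal ∂μ) ^ p.toReal⁻¹ := by
    rw [Lp.norm_def, h1, ENNReal.toReal_ofReal (by positivity)]
  rw [h2, ← Real.rpow_mul hnn, inv_mul_cancel₀ hr.ne', Real.rpow_one]
  apply integral_congr_ae
  filter_upwards [Lp.coeFn_sub x y] with a ha
  rw [Real.norm_eq_abs, ha, Pi.sub_apply]

lemma integrable_rpow_sub (hp0 : p ≠ 0) (hpt : p ≠ ⊤) (x y : Lp ℝ p μ) :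
    Integrable (fun a => |x a - y a| ^ p.toReal) μ := by
  have hmem : MemLp (⇑(x - y)) p μ := Lp.memLp (x - y)
  have h1 := hmem.integrable_norm_rpow hp0 hpt
  refine h1.congr ?_
  filter_upwards [Lp.coeFn_sub x y] with a ha
  rw [Real.norm_eq_abs, ha, Pi.sub_apply]

end LpFacts

lemma dim_bound (n : ℕ) (hn : 2 ≤ n) (C ε : ℝ) (hC : 1 ≤ C) (hε : 0 < ε) (c : ℕ)
    (hc : c ≤ n * n) :
    ((⌊3 * (C * n) * Real.log (2 * (c : ℝ) + 1) / ε ^ 2⌋₊ + 1 : ℕ) : ℝ) ≤
      (12 * C / ε ^ 2 + 2) * n * Real.log n := by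
  have hn2 : (2 : ℝ) ≤ n := by exact_mod_cast hn
  have hlog2 : (0.6931471803 : ℝ) < Real.log 2 := Real.log_two_gt_d9
  have hlogn : Real.log 2 ≤ Real.log n := Real.log_le_log (by norm_num) hn2
  have hℓ0 : 0 < Real.log n := by linarith
  set L : ℝ := Real.log (2 * (c : ℝ) + 1) with hL
  have hc0 : (0 : ℝ) ≤ c := Nat.cast_nonneg _
  have hLle : L ≤ 4 * Real.log n := by
    have hcard : (c : ℝ) ≤ (n : ℝ) * n := by exact_mod_cast hc
    have h2 : 2 * (c : ℝ) + 1 ≤ (n : ℝ) ^ 4 := by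
      have : (n : ℝ) ^ 4 - 2 * ((n : ℝ) * n) - 1 ≥ 0 := by
        nlinarith [sq_nonneg ((n : ℝ) ^ 2 - 1), mul_self_nonneg ((n : ℝ)),
          mul_le_mul hn2 hn2 (by norm_num) (by linarith)]
      linarith
    have h3 : L ≤ Real.log ((n : ℝ) ^ 4) := by
      rw [hL]
      exact Real.log_le_log (by linarith) h2
    rw [Real.log_pow] at h3
    push_cast at h3
    linarith
  have hL0 : 0 ≤ L := by
    rw [hL]; apply Real.log_nonneg
    linarith
  have hM0 : 0 ≤ C * (n : ℝ) := by positivity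
  have hε2 : 0 < ε ^ 2 := by positivity
  have hNle : ((⌊3 * (C * n) * L / ε ^ 2⌋₊ + 1 : ℕ) : ℝ) ≤ 3 * (C * n) * L / ε ^ 2 + 1 := by
    push_cast
    have h0 : 0 ≤ 3 * (C * n) * L / ε ^ 2 :=
      div_nonneg (mul_nonneg (mul_nonneg (by norm_num) hM0) hL0) hε2.le
    have := Nat.floor_le h0
    linarith
  have hmain : 3 * (C * n) * L / ε ^ 2 ≤ 12 * C / ε ^ 2 * n * Real.log n := by
    rw [div_le_iff₀ hε2]
    have h1 : 3 * (C * n) * L ≤ 3 * (C * n) * (4 * Real.log n) :=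
      mul_le_mul_of_nonneg_left hLle (by positivity)
    calc 3 * (C * n) * L ≤ 3 * (C * n) * (4 * Real.log n) := h1
      _ = 12 * C / ε ^ 2 * n * Real.log n * ε ^ 2 := by
        field_simp; ring
  have hone : (1 : ℝ) ≤ 2 * n * Real.log n := by nlinarith
  calc ((⌊3 * (C * n) * L / ε ^ 2⌋₊ + 1 : ℕ) : ℝ) ≤ 3 * (C * n) * L / ε ^ 2 + 1 := hNle
    _ ≤ 12 * C / ε ^ 2 * n * Real.log n + 2 * n * Real.log n := add_le_add hmain hone
    _ = (12 * C / ε ^ 2 + 2) * n * Real.log n := by ring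

theorem main_weighted (p : ENNReal) [Fact (1 ≤ p)] (hpt : p ≠ ⊤) (ε : ℝ) (hε : 0 < ε)
    (hε1 : ε < 1) (C : ℝ) (hC1 : 1 ≤ C)
    {α : Type u} [MeasurableSpace α] (μ : Measure α) (X : Finset (Lp ℝ p μ)) (hX : 2 ≤ X.card)
    (E : Finset ({x // x ∈ X} × {x // x ∈ X} × ℝ)) (hEpos : ∀ e ∈ E, 0 < e.2.2)
    (hEcost : ∑ e ∈ E, e.2.2 ^ p.toReal ≤ C * X.card)
    (hEdom : ∀ (t : {x // x ∈ X} → ℝ) (L : ℝ), 0 ≤ L →
      (∀ e ∈ E, e.2.2 * |t e.1 - t e.2.1| ≤ L * ‖(e.1 : Lp ℝ p μ) - e.2.1‖) →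
      ∀ u v : {x // x ∈ X}, |t u - t v| ≤ L * ‖(u : Lp ℝ p μ) - v‖) :
    ∃ d : ℕ, (d : ℝ) ≤ (12 * C / ε ^ 2 + 2) * X.card * Real.log X.card ∧
      ∃ f : Lp ℝ p μ → PiLp p (fun _ : Fin d => ℝ), ∀ x ∈ X, ∀ y ∈ X,
        (1 - ε) * ‖x - y‖ ^ p.toReal ≤ ‖f x - f y‖ ^ p.toReal ∧
        ‖f x - f y‖ ^ p.toReal ≤ (1 + ε) * ‖x - y‖ ^ p.toReal := by
  classical
  have hp1 : 1 ≤ p := Fact.out
  have hp0 : p ≠ 0 := (zero_lt_one.trans_le hp1).ne'
  set r := p.toReal with hr_def
  have hr1 : 1 ≤ r := by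
    have := ENNReal.toReal_mono hpt hp1
    simpa using this
  have hr0 : 0 < r := by linarith
  set n := X.card with hn
  have hcardV : Fintype.card {x // x ∈ X} = n := by simp [hn]
  let w : {x // x ∈ X} → {x // x ∈ X} → ℝ := fun u v => ‖(u : Lp ℝ p μ) - v‖
  have hwnn : ∀ u v, 0 ≤ w u v := fun u v => norm_nonneg _
  have hwpos : ∀ u v, u ≠ v → 0 < w u v := by
    intro u v huv
    have : (u : Lp ℝ p μ) - v ≠ 0 := by
      intro h0
      exact huv (Subtype.ext (sub_eq_zero.mp h0))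
    exact norm_pos_iff.mpr this
  let F : {x // x ∈ X} → α → ℝ := fun v => ((v : Lp ℝ p μ) : α → ℝ)
  have hFmeas : ∀ v, Measurable (F v) := fun v => (Lp.stronglyMeasurable _).measurable
  let h : {x // x ∈ X} → {x // x ∈ X} → α → ℝ :=
    fun a b ω => |F a ω - F b ω| ^ r / (w a b) ^ r
  have hnn : ∀ a b ω, 0 ≤ h a b ω := by
    intro a b ω; simp only [h]
    have : 0 ≤ w a b := norm_nonneg _
    positivity
  have hint : ∀ a b, Integrable (h a b) μ := by
    intro a b
    exact (integrable_rpow_sub hp0 hpt (a : Lp ℝ p μ) b).div_const _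
  have hint1 : ∀ a b, ∫ ω, h a b ω ∂μ ≤ 1 := by
    intro a b
    simp only [h]
    rw [integral_div, integral_rpow_sub hp0 hpt]
    exact div_self_le_one _
  have hmeas : ∀ a b, Measurable (h a b) := by
    intro a b
    have h1 := hFmeas a
    have h2 := hFmeas b
    simp only [h]
    fun_prop
  let hE : ({x // x ∈ X} × {x // x ∈ X} × ℝ) → α → ℝ := fun e ω => e.2.2 ^ r * h e.1 e.2.1 ω
  have hEnn : ∀ e ∈ E, ∀ ω, 0 ≤ hE e ω := by
    intro e he ω
    exact mul_nonneg (Real.rpow_pos_of_pos (hEpos e he) r).le (hnn _ _ ω)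
  have hEint : ∀ e, Integrable (hE e) μ := fun e => (hint _ _).const_mul _
  have hEmeas : ∀ e, Measurable (hE e) := fun e => (hmeas _ _).const_mul _
  let S : α → ℝ := fun ω => ∑ e ∈ E, hE e ω
  have hSnn : ∀ ω, 0 ≤ S ω := fun ω => Finset.sum_nonneg (fun e he => hEnn e he ω)
  have hSint : Integrable S μ := integrable_finsetSum _ (fun e _ => hEint e)
  have hSmeas : Measurable S := Finset.measurable_sum _ (fun e _ => hEmeas e)
  -- pointwise bound for all pairs
  have hpair : ∀ u v ω, |F u ω - F v ω| ^ r ≤ (w u v) ^ r * S ω := by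
    intro u v ω
    have hS0 : 0 ≤ (S ω) ^ (1 / r) := Real.rpow_nonneg (hSnn ω) _
    have hadm : ∀ e ∈ E, e.2.2 * |F e.1 ω - F e.2.1 ω| ≤
        (S ω) ^ (1 / r) * ‖(e.1 : Lp ℝ p μ) - e.2.1‖ := by
      intro e he
      have hc := hEpos e he
      by_cases hab : e.1 = e.2.1
      · rw [← hab]; simp
      · have hwp := hwpos e.1 e.2.1 hab
        have hwr : 0 < (w e.1 e.2.1) ^ r := Real.rpow_pos_of_pos hwp r
        have h1 : hE e ω ≤ S ω :=
          Finset.single_le_sum (f := fun e => hE e ω) (fun e he => hEnn e he ω) he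
        have h2 : (e.2.2 * |F e.1 ω - F e.2.1 ω|) ^ r ≤ S ω * (w e.1 e.2.1) ^ r := by
          rw [Real.mul_rpow hc.le (abs_nonneg _)]
          simp only [hE, h] at h1
          rw [← mul_div_assoc, div_le_iff₀ hwr] at h1
          exact h1
        have h3 : e.2.2 * |F e.1 ω - F e.2.1 ω| =
            ((e.2.2 * |F e.1 ω - F e.2.1 ω|) ^ r) ^ (1 / r) := by
          rw [← Real.rpow_mul (by positivity), mul_one_div_cancel hr0.ne', Real.rpow_one]
        rw [h3]
        calc ((e.2.2 * |F e.1 ω - F e.2.1 ω|) ^ r) ^ (1 / r)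
            ≤ (S ω * (w e.1 e.2.1) ^ r) ^ (1 / r) :=
              Real.rpow_le_rpow (by positivity) h2 (by positivity)
          _ = (S ω) ^ (1 / r) * w e.1 e.2.1 := by
              rw [Real.mul_rpow (hSnn ω) (by positivity), ← Real.rpow_mul hwp.le,
                mul_one_div_cancel hr0.ne', Real.rpow_one]
    have h2 := hEdom (fun v => F v ω) ((S ω) ^ (1 / r)) hS0 hadm u v
    have hw0 := hwnn u v
    calc |F u ω - F v ω| ^ r ≤ ((S ω) ^ (1 / r) * w u v) ^ r :=
          Real.rpow_le_rpow (abs_nonneg _) h2 hr0.le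
      _ = (w u v) ^ r * S ω := by
          rw [Real.mul_rpow hS0 hw0, ← Real.rpow_mul (hSnn ω), one_div_mul_cancel hr0.ne',
            Real.rpow_one, mul_comm]
  -- two distinct points
  obtain ⟨x₀, hx₀, y₀, hy₀, hxy₀⟩ := Finset.one_lt_card.mp (show 1 < X.card by omega)
  set c : ℝ := ∫ ω, S ω ∂μ with hc
  have hc0 : 0 ≤ c := integral_nonneg hSnn
  set M : ℝ := C * n with hM
  have hn2 : (2 : ℝ) ≤ n := by exact_mod_cast hX
  have hM1 : 1 ≤ M := by
    rw [hM]; nlinarith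
  have hcle : c ≤ M := by
    have h1 : c = ∑ e ∈ E, ∫ ω, hE e ω ∂μ := by
      rw [hc]; exact integral_finsetSum _ (fun e _ => hEint e)
    rw [h1]
    refine le_trans (Finset.sum_le_sum (fun e he => ?_)) hEcost
    simp only [hE]
    rw [integral_const_mul]
    have := hint1 e.1 e.2.1
    have hpos := (Real.rpow_pos_of_pos (hEpos e he) r).le
    nlinarith
  have hcpos : 0 < c := by
    rcases hc0.lt_or_eq with h' | h'
    · exact h'
    · exfalso
      have hS0 : S =ᵐ[μ] 0 := (integral_eq_zero_iff_of_nonneg hSnn hSint).mp h'.symm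
      let u : {x // x ∈ X} := ⟨x₀, hx₀⟩
      let v : {x // x ∈ X} := ⟨y₀, hy₀⟩
      have huv : u ≠ v := fun h => hxy₀ (congrArg Subtype.val h)
      have h0 : ∫ a, |F u a - F v a| ^ r ∂μ = 0 := by
        have : (fun a => |F u a - F v a| ^ r) =ᵐ[μ] 0 := by
          filter_upwards [hS0] with a ha
          have h1 := hpair u v a
          rw [ha] at h1
          simp only [Pi.zero_apply, mul_zero] at h1
          have h2 : 0 ≤ |F u a - F v a| ^ r := by positivity
          simp only [Pi.zero_apply]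
          linarith
        rw [integral_congr_ae this]; simp
      have h1 : ‖(u : Lp ℝ p μ) - v‖ ^ r = 0 := by
        rw [← integral_rpow_sub hp0 hpt]; exact h0
      have h2 := hwpos u v huv
      have h3 : 0 < ‖(u : Lp ℝ p μ) - v‖ ^ r := Real.rpow_pos_of_pos h2 r
      linarith
  -- the sampling density
  let q : α → ℝ := fun ω => S ω / c
  have hqnn : ∀ ω, 0 ≤ q ω := fun ω => div_nonneg (hSnn ω) hc0
  have hqmeas : Measurable q := hSmeas.div_const c
  have hqint : Integrable q μ := hSint.div_const c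
  have hqint1 : ∫ ω, q ω ∂μ = 1 := by
    simp only [q]
    rw [integral_div, ← hc, div_self hcpos.ne']
  have hSq : ∀ ω, S ω = c * q ω := by
    intro ω; simp only [q]; field_simp
  let P : Measure α := μ.withDensity (fun ω => ENNReal.ofReal (q ω))
  have hPprob : IsProbabilityMeasure P := by
    constructor
    simp only [P]
    rw [withDensity_apply _ MeasurableSet.univ, Measure.restrict_univ,
      ← ofReal_integral_eq_lintegral_ofReal hqint (Filter.Eventually.of_forall hqnn), hqint1,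
      ENNReal.ofReal_one]
  have hPint : ∀ G : α → ℝ, ∫ ω, G ω ∂P = ∫ ω, q ω * G ω ∂μ := by
    intro G
    simp only [P]
    rw [integral_withDensity_eq_integral_toReal_smul (by fun_prop)
      (Filter.Eventually.of_forall (fun ω => ENNReal.ofReal_lt_top))]
    apply integral_congr_ae
    filter_upwards with ω
    rw [ENNReal.toReal_ofReal (hqnn ω), smul_eq_mul]
  -- the family of functions
  let g : {z : {x // x ∈ X} × {x // x ∈ X} // z.1 ≠ z.2} → α → ℝ :=
    fun j ω => |F j.1.1 ω - F j.1.2 ω| ^ r / ((w j.1.1 j.1.2) ^ r * q ω)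
  have hgmeas : ∀ j, Measurable (g j) := by
    intro j
    have h1 := hFmeas j.1.1
    have h2 := hFmeas j.1.2
    simp only [g]
    fun_prop
  have hg0 : ∀ j ω, 0 ≤ g j ω := by
    intro j ω
    simp only [g]
    have h1 : 0 ≤ w j.1.1 j.1.2 := norm_nonneg _
    have h2 := hqnn ω
    positivity
  have hgM : ∀ j ω, g j ω ≤ M := by
    intro j ω
    have hwp := hwpos j.1.1 j.1.2 j.2
    have hwr : 0 < (w j.1.1 j.1.2) ^ r := Real.rpow_pos_of_pos hwp r
    rcases (hqnn ω).lt_or_eq with hq | hq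
    · simp only [g]
      rw [div_le_iff₀ (by positivity)]
      have h1 := hpair j.1.1 j.1.2 ω
      rw [hSq ω] at h1
      have h2 : (w j.1.1 j.1.2) ^ r * (c * q ω) ≤ (w j.1.1 j.1.2) ^ r * (M * q ω) := by
        apply mul_le_mul_of_nonneg_left _ hwr.le
        exact mul_le_mul_of_nonneg_right hcle hq.le
      calc |F j.1.1 ω - F j.1.2 ω| ^ r ≤ (w j.1.1 j.1.2) ^ r * (M * q ω) := h1.trans h2
        _ = M * ((w j.1.1 j.1.2) ^ r * q ω) := by ring
    · simp only [g]
      rw [← hq, mul_zero, div_zero]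
      linarith
  have hgint : ∀ j, ∫ ω, g j ω ∂P = 1 := by
    intro j
    have hwp := hwpos j.1.1 j.1.2 j.2
    have hwr : 0 < (w j.1.1 j.1.2) ^ r := Real.rpow_pos_of_pos hwp r
    rw [hPint]
    have h1 : ∀ ω, q ω * g j ω = |F j.1.1 ω - F j.1.2 ω| ^ r / (w j.1.1 j.1.2) ^ r := by
      intro ω
      rcases (hqnn ω).lt_or_eq with hq | hq
      · simp only [g]; field_simp
      · have h2 := hpair j.1.1 j.1.2 ω
        rw [hSq ω, ← hq, mul_zero, mul_zero] at h2
        have h3 : 0 ≤ |F j.1.1 ω - F j.1.2 ω| ^ r := by positivity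
        have h4 : |F j.1.1 ω - F j.1.2 ω| ^ r = 0 := le_antisymm h2 h3
        rw [← hq, h4]; simp
    simp only [h1]
    rw [integral_div, integral_rpow_sub hp0 hpt]
    exact div_self hwr.ne'
  -- sample
  set L : ℝ := Real.log (2 * (Fintype.card {z : {x // x ∈ X} × {x // x ∈ X} // z.1 ≠ z.2} : ℝ) + 1)
    with hL
  set N : ℕ := ⌊3 * M * L / ε ^ 2⌋₊ + 1 with hN
  have hNlt : 3 * M * L / ε ^ 2 < N := by
    rw [hN]; push_cast; exact Nat.lt_floor_add_one _
  have hNpos : (0 : ℝ) < N := by rw [hN]; positivity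
  obtain ⟨ω, hω⟩ := Vale.Agent.H73.exists_sample P g hgmeas M ε hM1 hε hε1.le
    (fun j => Filter.Eventually.of_forall (hg0 j)) (fun j => Filter.Eventually.of_forall (hgM j))
    hgint N hNlt
  let f : Lp ℝ p μ → PiLp p (fun _ : Fin N => ℝ) := fun x =>
    WithLp.toLp p (fun i => x (ω i) / ((N : ℝ) * q (ω i)) ^ (1 / r))
  have hfnorm : ∀ x y : Lp ℝ p μ, ‖f x - f y‖ ^ r =
      ∑ i, |x (ω i) - y (ω i)| ^ r / ((N : ℝ) * q (ω i)) := by
    intro x y
    rw [PiLp.norm_eq_sum hr0, ← Real.rpow_mul (Finset.sum_nonneg (fun i _ => by positivity)),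
      one_div_mul_cancel hr0.ne', Real.rpow_one]
    apply Finset.sum_congr rfl
    intro i _
    have hc : 0 ≤ (N : ℝ) * q (ω i) := mul_nonneg hNpos.le (hqnn _)
    have hc' : 0 ≤ ((N : ℝ) * q (ω i)) ^ (1 / r) := Real.rpow_nonneg hc _
    have h1 : (f x - f y) i = (x (ω i) - y (ω i)) / ((N : ℝ) * q (ω i)) ^ (1 / r) := by
      simp only [f, PiLp.sub_apply]; rw [sub_div]
    rw [h1, Real.norm_eq_abs, abs_div, abs_of_nonneg hc', Real.div_rpow (abs_nonneg _) hc',
      ← Real.rpow_mul hc, one_div_mul_cancel hr0.ne', Real.rpow_one]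
  refine ⟨N, ?_, f, ?_⟩
  · have hcard : Fintype.card {z : {x // x ∈ X} × {x // x ∈ X} // z.1 ≠ z.2} ≤ n * n := by
      have h1 : Fintype.card {z : {x // x ∈ X} × {x // x ∈ X} // z.1 ≠ z.2} ≤
          Fintype.card ({x // x ∈ X} × {x // x ∈ X}) := Fintype.card_subtype_le _
      rwa [Fintype.card_prod, hcardV] at h1
    have := dim_bound n hX C ε hC1 hε _ hcard
    rw [hN, hL, hM]
    exact this
  · intro x hx y hy
    by_cases hxy : x = y
    · subst hxy
      simp [Real.zero_rpow hr0.ne']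
    · let j : {z : {x // x ∈ X} × {x // x ∈ X} // z.1 ≠ z.2} :=
        ⟨(⟨x, hx⟩, ⟨y, hy⟩), fun h => hxy (congrArg Subtype.val h)⟩
      have hj := hω j
      have hwp : 0 < ‖x - y‖ := hwpos ⟨x, hx⟩ ⟨y, hy⟩ j.2
      have hwr : 0 < ‖x - y‖ ^ r := Real.rpow_pos_of_pos hwp r
      have hsum : ‖f x - f y‖ ^ r = ‖x - y‖ ^ r * ((∑ i, g j (ω i)) / N) := by
        rw [hfnorm, Finset.sum_div, Finset.mul_sum]
        apply Finset.sum_congr rfl
        intro i _
        simp only [g, j, F, w]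
        by_cases hq : q (ω i) = 0
        · simp [hq]
        · field_simp
      rw [hsum]
      rw [abs_le] at hj
      constructor
      · rw [mul_comm]
        exact mul_le_mul_of_nonneg_left (by linarith [hj.1]) hwr.le
      · rw [mul_comm (1 + ε)]
        exact mul_le_mul_of_nonneg_left (by linarith [hj.2]) hwr.le

end Vale.Agent.H51.P249
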