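import Mathlib
import Vale.Agent.H51.P249.Embed

/-!
# `n log n` coordinates for finite subsets of `L_p`, given the single-scale lemma
-/

open MeasureTheory

namespace Vale.Agent.H51.P249

universe u

/-- The single-scale statement for all finite edge sets in a type `V`, with constant `K`. -/
def SingleScale (r K : ℝ) (V : Type u) [PseudoMetricSpace V] : Prop :=
  ∀ (U : Finset V) (G : Finset (V × V)), (∀ e ∈ G, e.1 ∈ U ∧ e.2 ∈ U) → ∀ (l c : ℝ),
    (∀ e ∈ G, dist e.1 e.2 ≤ l) → 0 < c →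
    ∃ E : List (V × V × ℝ), (∀ e ∈ E, 0 < e.2.2) ∧ cost r E ≤ K * c ^ r * U.card ∧
      ∀ e ∈ G, Ctl E e.1 e.2 (8 * l / c)

theorem nlogn_of_single_scale (p : ENNReal) [Fact (1 ≤ p)] (hp : p ≠ ⊤) (D : ℝ) (hD : 1 < D)
    (K : ℝ) (hK : 0 ≤ K)
    (hSS : ∀ (V : Type u) [MetricSpace V] [Fintype V], SingleScale p.toReal K V) :
    ∃ C : ℝ, ∀ {α : Type u} [MeasurableSpace α] (μ : Measure α) (X : Finset (Lp ℝ p μ)),
      2 ≤ X.card →
      ∃ d : ℕ, (d : ℝ) ≤ C * X.card * Real.log X.card ∧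
        ∃ (f : Lp ℝ p μ → PiLp p (fun _ : Fin d => ℝ)) (s : ℝ), 0 < s ∧
          ∀ x ∈ X, ∀ y ∈ X, s * ‖x - y‖ ≤ ‖f x - f y‖ ∧ ‖f x - f y‖ ≤ D * s * ‖x - y‖ := by
  have hp1 : 1 ≤ p := Fact.out
  have hr1 : 1 ≤ p.toReal := by
    have := ENNReal.toReal_mono hp hp1
    simpa using this
  have hr0 : 0 < p.toReal := by linarith
  have hDr : 1 < D ^ p.toReal := Real.one_lt_rpow hD hr0
  have hε : 0 < (D ^ p.toReal - 1) / (D ^ p.toReal + 1) := div_pos (by linarith) (by linarith)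
  have hε1 : (D ^ p.toReal - 1) / (D ^ p.toReal + 1) < 1 := by
    rw [div_lt_one (by linarith)]; linarith
  have h1mε : 1 - (D ^ p.toReal - 1) / (D ^ p.toReal + 1) = 2 / (D ^ p.toReal + 1) := by
    field_simp; ring
  have h1pε : 1 + (D ^ p.toReal - 1) / (D ^ p.toReal + 1) =
      D ^ p.toReal * (2 / (D ^ p.toReal + 1)) := by
    field_simp; ring
  have hs0 : 0 < 2 / (D ^ p.toReal + 1) := div_pos (by norm_num) (by linarith)
  have h160 : (0 : ℝ) ≤ 160 ^ p.toReal := Real.rpow_nonneg (by norm_num) _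
  set C₀ : ℝ := 1 + 12 * K * 160 ^ p.toReal with hC₀
  have hC₀1 : 1 ≤ C₀ := by
    rw [hC₀]
    have : 0 ≤ 12 * K * 160 ^ p.toReal := by positivity
    linarith
  refine ⟨12 * C₀ / ((D ^ p.toReal - 1) / (D ^ p.toReal + 1)) ^ 2 + 2, ?_⟩
  intro α _ μ X hX
  -- the weighted dominating edge set of the finite metric space `X`
  obtain ⟨E, hEpos, hEcost, hEctl⟩ :=
    dominating_of_single_scale (V := {x // x ∈ X}) p.toReal K hK (hSS {x // x ∈ X})
  obtain ⟨F, hFpos, hFcost, hFdom⟩ := finset_of_list p.toReal _ E hEpos hEcost hEctl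
  have hcard : (Fintype.card {x // x ∈ X} : ℝ) = X.card := by simp
  rw [hcard] at hFcost
  have hFdom' : ∀ (t : {x // x ∈ X} → ℝ) (L : ℝ), 0 ≤ L →
      (∀ e ∈ F, e.2.2 * |t e.1 - t e.2.1| ≤ L * ‖(e.1 : Lp ℝ p μ) - e.2.1‖) →
      ∀ u v : {x // x ∈ X}, |t u - t v| ≤ L * ‖(u : Lp ℝ p μ) - v‖ := by
    intro t L hL hA u v
    have h := hFdom t L hL (fun e he => by
      rw [Subtype.dist_eq, dist_eq_norm]; exact hA e he) u v
    rwa [Subtype.dist_eq, dist_eq_norm] at h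
  obtain ⟨d, hd, f, hf⟩ := main_weighted p hp _ hε hε1 C₀ hC₀1 μ X hX F hFpos hFcost hFdom'
  refine ⟨d, hd, f, (2 / (D ^ p.toReal + 1)) ^ (1 / p.toReal), Real.rpow_pos_of_pos hs0 _, ?_⟩
  intro x hx y hy
  obtain ⟨h1, h2⟩ := hf x hx y hy
  rw [h1mε] at h1
  rw [h1pε] at h2
  have hroot : ∀ t : ℝ, 0 ≤ t → (t ^ p.toReal) ^ (1 / p.toReal) = t := by
    intro t ht
    rw [← Real.rpow_mul ht, mul_one_div_cancel hr0.ne', Real.rpow_one]
  have hw : 0 ≤ ‖x - y‖ := norm_nonneg _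
  have hwr : 0 ≤ ‖x - y‖ ^ p.toReal := Real.rpow_nonneg hw _
  constructor
  · have h3 := Real.rpow_le_rpow (mul_nonneg hs0.le hwr) h1 (one_div_nonneg.mpr hr0.le)
    rwa [Real.mul_rpow hs0.le hwr, hroot _ hw, hroot _ (norm_nonneg _)] at h3
  · have h3 := Real.rpow_le_rpow (Real.rpow_nonneg (norm_nonneg _) _) h2
      (one_div_nonneg.mpr hr0.le)
    have hD0 : 0 ≤ D := by linarith
    rwa [hroot _ (norm_nonneg _), Real.mul_rpow (mul_nonneg (Real.rpow_nonneg hD0 _) hs0.le) hwr,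
      Real.mul_rpow (Real.rpow_nonneg hD0 _) hs0.le, hroot _ hw, hroot _ hD0] at h3

end Vale.Agent.H51.P249
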