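import Mathlib
import Vale.Agent.H51.P249.Final
import Vale.Agent.H5.SingleScale

/-!
# `n log n` coordinates for finite subsets of `L_p`
-/

open MeasureTheory

namespace Vale.Agent.H51.P249

universe u

theorem single_scale_holds (r : ℝ) (hr : 1 ≤ r) (V : Type u) [MetricSpace V] [Fintype V] :
    SingleScale r (2 * (⌈2 * (10 : ℝ) ^ r⌉₊ : ℝ)) V := by
  classical
  intro U G hG l c hl hc
  obtain ⟨E, h1, h2, h3⟩ := Vale.Agent.H5.single_scale r hr U G hG l c hl hc
  exact ⟨E, h1, h2, fun e he => h3 e he⟩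

/-- Every finite metric space has a weighted dominating edge list of linear cost. -/
theorem exists_dominating (r : ℝ) (hr : 1 ≤ r) (V : Type u) [MetricSpace V] [Fintype V] :
    ∃ E : List (V × V × ℝ), (∀ e ∈ E, 0 < e.2.2) ∧
      cost r E ≤ (1 + 12 * (2 * (⌈2 * (10 : ℝ) ^ r⌉₊ : ℝ)) * 160 ^ r) * Fintype.card V ∧
      ∀ u v : V, Ctl E u v (dist u v) :=
  dominating_of_single_scale r _ (by positivity) (single_scale_holds r hr V)

theorem dimension_reduction_nlogn (p : ENNReal) [Fact (1 ≤ p)] (hp : p ≠ ⊤) (D : ℝ)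
    (hD : 1 < D) :
    ∃ C : ℝ, ∀ {α : Type u} [MeasurableSpace α] (μ : Measure α) (X : Finset (Lp ℝ p μ)),
      ∃ d : ℕ, (d : ℝ) ≤ C * X.card * Real.log X.card ∧
        ∃ (f : Lp ℝ p μ → PiLp p (fun _ : Fin d => ℝ)) (s : ℝ), 0 < s ∧
          ∀ x ∈ X, ∀ y ∈ X, s * ‖x - y‖ ≤ ‖f x - f y‖ ∧ ‖f x - f y‖ ≤ D * s * ‖x - y‖ := by
  have hp1 : 1 ≤ p := Fact.out
  have hr1 : 1 ≤ p.toReal := by
    have := ENNReal.toReal_mono hp hp1
    simpa using this
  obtain ⟨C, hC⟩ := nlogn_of_single_scale p hp D hD (2 * (⌈2 * (10 : ℝ) ^ p.toReal⌉₊ : ℝ))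
    (by positivity) (fun V _ _ => single_scale_holds p.toReal hr1 V)
  refine ⟨C, ?_⟩
  intro α _ μ X
  by_cases hX : 2 ≤ X.card
  · exact hC μ X hX
  · refine ⟨0, ?_, fun _ => 0, 1, one_pos, ?_⟩
    · have h : X.card = 0 ∨ X.card = 1 := by omega
      rcases h with h | h <;> simp [h]
    · intro x hx y hy
      have hxy : x = y := Finset.card_le_one.mp (by omega) x hx y hy
      subst hxy
      simp

end Vale.Agent.H51.P249
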